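import Vale.Agent.P358.H888.C

set_option autoImplicit false
set_option linter.all false

/-!
Tensor powers next to an arbitrary channel, the classical capacity of tensor products, and the
minimum output entropy in closed form.
-/

namespace Vale.Agent.P358

open Matrix
open scoped ComplexOrder Kronecker

section pow

variable {ι κ : Type} [Fintype ι] [DecidableEq ι] [Fintype κ] [DecidableEq κ]

/-- Tensor powers of the qubit channel next to an arbitrary channel. -/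
theorem holevo_pow_side {γ ν : ℝ} (hγ : γ ∈ Set.Icc (0:ℝ) 1) (hν : ν ∈ Set.Icc (0:ℝ) 1)
    [Nonempty ι] {Ψ : Matrix ι ι ℂ →ₗ[ℂ] Matrix κ κ ℂ} (hΨ : IsChannel Ψ) (n : ℕ) :
    holevo (tensorMap (tensorPower (gadc γ ν) n) Ψ) = n * holevo (gadc γ ν) + holevo Ψ := by
  induction n with
  | zero =>
    rw [← (ceZero (gadc γ ν) Ψ).holevo_eq]
    simp
  | succ n ih =>
    have hc : IsChannel (tensorMap (tensorPower (gadc γ ν) n) Ψ) :=
      ((gadc_isChannel hγ hν).tensorPower n).tensorMap hΨ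
    rw [← (ceSucc (gadc γ ν) Ψ n).holevo_eq, holevo_strong hγ hν hc, ih]
    push_cast
    ring

/-- The Holevo capacity of the powers of a tensor product. -/
theorem holevo_tensorPower_tensorMap {γ ν : ℝ} (hγ : γ ∈ Set.Icc (0:ℝ) 1)
    (hν : ν ∈ Set.Icc (0:ℝ) 1) [Nonempty ι] {Ψ : Matrix ι ι ℂ →ₗ[ℂ] Matrix κ κ ℂ}
    (hΨ : IsChannel Ψ) (n : ℕ) :
    holevo (tensorPower (tensorMap (gadc γ ν) Ψ) n) =
      n * holevo (gadc γ ν) + holevo (tensorPower Ψ n) := by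
  rw [← (cePow (gadc γ ν) Ψ n).holevo_eq, holevo_pow_side hγ hν (hΨ.tensorPower n)]

/-- The capacity set of a channel is bounded above. -/
theorem capacitySet_bddAbove {Ψ : Matrix ι ι ℂ →ₗ[ℂ] Matrix κ κ ℂ} [Nonempty ι]
    (hΨ : IsChannel Ψ) :
    BddAbove {x | ∃ n : ℕ, 1 ≤ n ∧ x = holevo (tensorPower Ψ n) / n} := by
  refine ⟨Real.logb 2 (Fintype.card κ), ?_⟩
  rintro x ⟨n, hn, rfl⟩
  have hn' : (0 : ℝ) < n := by exact_mod_cast hn
  rw [div_le_iff₀ hn']
  refine csSup_le (holevoSet_nonempty _) fun v hv => ?_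
  refine ((hΨ.tensorPower n).holevoSet_le hv).trans (le_of_eq ?_)
  rw [Fintype.card_pi, Finset.prod_const, Finset.card_univ, Fintype.card_fin]
  push_cast
  rw [Real.logb_pow]
  ring

/-- **The classical capacity of a tensor product with the qubit channel is additive.** -/
theorem capacity_strong {γ ν : ℝ} (hγ : γ ∈ Set.Icc (0:ℝ) 1) (hν : ν ∈ Set.Icc (0:ℝ) 1)
    [Nonempty ι] {Ψ : Matrix ι ι ℂ →ₗ[ℂ] Matrix κ κ ℂ} (hΨ : IsChannel Ψ) :
    capacity (tensorMap (gadc γ ν) Ψ) = capacity (gadc γ ν) + capacity Ψ := by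
  rw [capacity_eq_holevo hγ hν]
  have hval : ∀ n : ℕ, 1 ≤ n → holevo (tensorPower (tensorMap (gadc γ ν) Ψ) n) / n =
      holevo (gadc γ ν) + holevo (tensorPower Ψ n) / n := by
    intro n hn
    have hn' : (n : ℝ) ≠ 0 := by exact_mod_cast (Nat.one_le_iff_ne_zero.1 hn)
    rw [holevo_tensorPower_tensorMap hγ hν hΨ]
    field_simp
  have hne : ∀ {ι κ : Type} [Fintype ι] [DecidableEq ι] [Fintype κ] [DecidableEq κ]
      (Θ : Matrix ι ι ℂ →ₗ[ℂ] Matrix κ κ ℂ),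
      {x | ∃ n : ℕ, 1 ≤ n ∧ x = holevo (tensorPower Θ n) / n}.Nonempty :=
    fun Θ => ⟨_, 1, le_rfl, rfl⟩
  have hb := capacitySet_bddAbove hΨ
  refine le_antisymm ?_ ?_
  · refine csSup_le (hne _) ?_
    rintro x ⟨n, hn, rfl⟩
    rw [hval n hn]
    have : holevo (tensorPower Ψ n) / n ≤ capacity Ψ := le_csSup hb ⟨n, hn, rfl⟩
    linarith
  · have h1 : capacity Ψ ≤ capacity (tensorMap (gadc γ ν) Ψ) - holevo (gadc γ ν) := by
      refine csSup_le (hne _) ?_
      rintro x ⟨n, hn, rfl⟩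
      have h2 : holevo (tensorPower (tensorMap (gadc γ ν) Ψ) n) / n ≤
          capacity (tensorMap (gadc γ ν) Ψ) :=
        le_csSup (capacitySet_bddAbove ((gadc_isChannel hγ hν).tensorMap hΨ)) ⟨n, hn, rfl⟩
      rw [hval n hn] at h2
      linarith
    linarith

/-- Minimum output entropy of tensor powers next to an arbitrary channel. -/
theorem minOut_pow_side {γ ν : ℝ} (hγ : γ ∈ Set.Icc (0:ℝ) 1) (hν : ν ∈ Set.Icc (0:ℝ) 1)
    [Nonempty ι] {Ψ : Matrix ι ι ℂ →ₗ[ℂ] Matrix κ κ ℂ} (hΨ : IsChannel Ψ) (n : ℕ) :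
    minOutputEntropy (tensorMap (tensorPower (gadc γ ν) n) Ψ) =
      n * minOutputEntropy (gadc γ ν) + minOutputEntropy Ψ := by
  induction n with
  | zero =>
    rw [← (ceZero (gadc γ ν) Ψ).minOut_eq]
    simp
  | succ n ih =>
    have hc : IsChannel (tensorMap (tensorPower (gadc γ ν) n) Ψ) :=
      ((gadc_isChannel hγ hν).tensorPower n).tensorMap hΨ
    rw [← (ceSucc (gadc γ ν) Ψ n).minOut_eq, minOut_strong hγ hν hc, ih]
    push_cast
    ring

end pow

theorem minOut_tensorPower_zero {γ ν : ℝ} :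
    minOutputEntropy (tensorPower (gadc γ ν) 0) = 0 := by
  have h0 : ∀ ρ : Matrix (Fin 0 → Fin 2) (Fin 0 → Fin 2) ℂ, IsState ρ →
      entropy (tensorPower (gadc γ ν) 0 ρ) = 0 := by
    intro ρ hρ
    have hst : IsState (tensorPower (gadc γ ν) 0 ρ) :=
      (IsChannel.tensorPower_zero (gadc γ ν)).isState hρ
    rw [entropy_eq_vN, vN_of_unique hst.1, hst.2]
    simp
  obtain ⟨ρ, hρ⟩ := exists_isState (ι := Fin 0 → Fin 2)
  have hset : {x | ∃ ρ : Matrix (Fin 0 → Fin 2) (Fin 0 → Fin 2) ℂ, IsState ρ ∧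
      x = entropy (tensorPower (gadc γ ν) 0 ρ)} = {0} := by
    ext x
    constructor
    · rintro ⟨σ, hσ, rfl⟩
      exact h0 σ hσ
    · rintro rfl
      exact ⟨ρ, hρ, (h0 ρ hρ).symm⟩
  rw [minOutputEntropy, hset, csInf_singleton]

/-- The minimum output entropy is additive. -/
theorem minOut_tensorPower {γ ν : ℝ} (hγ : γ ∈ Set.Icc (0:ℝ) 1) (hν : ν ∈ Set.Icc (0:ℝ) 1)
    (n : ℕ) : minOutputEntropy (tensorPower (gadc γ ν) n) = n * minOutputEntropy (gadc γ ν) := by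
  induction n with
  | zero =>
    rw [minOut_tensorPower_zero]
    simp
  | succ n ih =>
    rw [← (ceSplit (gadc γ ν) n).minOut_eq,
      minOut_strong hγ hν ((gadc_isChannel hγ hν).tensorPower n), ih]
    push_cast
    ring

theorem outDet_ge {γ ν : ℝ} (hγ : γ ∈ Set.Icc (0:ℝ) 1) (q : ℝ) :
    γ * ν * (1 - ν) ≤ outDet γ ν (1 - q) q := by
  have h1 : outDet γ ν (1 - q) q - γ * ν * (1 - ν) = γ * (1 - γ) * (q - ν) ^ 2 := by
    unfold outDet
    ring
  have h2 : 0 ≤ γ * (1 - γ) * (q - ν) ^ 2 :=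
    mul_nonneg (mul_nonneg hγ.1 (sub_nonneg.2 hγ.2)) (sq_nonneg _)
  linarith

theorem eta2_one_h2 (D : ℝ) : eta2 1 D / Real.log 2 = h2 ((1 + √(1 - 4 * D)) / 2) := by
  unfold eta2
  rw [h2_eq]
  have e1 : (1 : ℝ) ^ 2 - 4 * D = 1 - 4 * D := by ring
  have e2 : 1 - (1 + √(1 - 4 * D)) / 2 = (1 - √(1 - 4 * D)) / 2 := by ring
  rw [e1, e2]

/-- **The minimum output entropy in closed form.** -/
theorem minOut_formula {γ ν : ℝ} (hγ : γ ∈ Set.Icc (0:ℝ) 1) (hν : ν ∈ Set.Icc (0:ℝ) 1) :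
    minOutputEntropy (gadc γ ν) = h2 ((1 + √(1 - 4 * (γ * ν * (1 - ν)))) / 2) := by
  have hl := log_two_pos
  rw [← eta2_one_h2]
  refine le_antisymm ?_ ?_
  · have h1 := minOut_le (gadc_isChannel hγ hν)
      (st_isState true (sub_nonneg.2 hν.2 : 0 ≤ 1 - ν) hν.1)
    have h2 := vN_gadc_st hγ hν true (sub_nonneg.2 hν.2 : 0 ≤ 1 - ν) hν.1
    have e1 : 1 - ν + ν = 1 := by ring
    have e2 : outDet γ ν (1 - ν) ν = γ * ν * (1 - ν) := by
      unfold outDet
      ring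
    rw [e1, e2, one_mul, Real.negMulLog_one, sub_zero] at h2
    rw [entropy_eq_vN, h2] at h1
    exact h1
  · refine le_csInf (outSet_nonempty _) ?_
    rintro x ⟨ρ, hρ, rfl⟩
    rw [entropy_eq_vN]
    refine div_le_div_of_nonneg_right ?_ hl.le
    refine le_trans ?_ (vN_gadc_ge hγ hν hρ)
    refine eta2_mono zero_le_one (mul_nonneg (mul_nonneg hγ.1 hν.1) (sub_nonneg.2 hν.2))
      (outDet_ge hγ _) ?_
    have h3 := det_gadc_ge hγ (ν := ν) hρ
    have h4 := four_det_le (gadc_isState hγ hν hρ)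
    linarith

end Vale.Agent.P358
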