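import Vale.Agent.P358.H888.Defs
import Vale.Agent.P358.Bdl.B1

set_option autoImplicit false
set_option linter.all false

/-!
Relabelling of channels, Kraus forms of tensor products, kernels.
-/

namespace Vale.Agent.P358

open Matrix
open scoped ComplexOrder Kronecker

/-- `Φ'` is `Φ` up to relabelling of the bases of the input and output. -/
structure ChanEquiv {ι κ ι' κ' : Type}
    (Φ : Matrix ι ι ℂ →ₗ[ℂ] Matrix κ κ ℂ)
    (Φ' : Matrix ι' ι' ℂ →ₗ[ℂ] Matrix κ' κ' ℂ) where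
  e : ι ≃ ι'
  f : κ ≃ κ'
  map : ∀ X : Matrix ι' ι' ℂ, Φ' X = (Φ (X.submatrix e e)).submatrix f.symm f.symm

section basic

variable {ι κ ι' κ' : Type} [Fintype ι] [DecidableEq ι] [Fintype κ] [DecidableEq κ]
  [Fintype ι'] [DecidableEq ι'] [Fintype κ'] [DecidableEq κ']

/-- Relabellings from kernels. -/
noncomputable def ChanEquiv.ofKernel (Φ : Matrix ι ι ℂ →ₗ[ℂ] Matrix κ κ ℂ)
    (Φ' : Matrix ι' ι' ℂ →ₗ[ℂ] Matrix κ' κ' ℂ) (e : ι ≃ ι') (f : κ ≃ κ')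
    (h : ∀ x x' y y', Φ' (Matrix.single (e x) (e x') 1) (f y) (f y') =
      Φ (Matrix.single x x' 1) y y') : ChanEquiv Φ Φ' where
  e := e
  f := f
  map X := by
    ext y y'
    rw [submatrix_apply, map_eq_sum_single Φ', map_eq_sum_single Φ]
    rw [← Equiv.sum_comp e]
    refine Finset.sum_congr rfl fun a _ => ?_
    rw [← Equiv.sum_comp e]
    refine Finset.sum_congr rfl fun b _ => ?_
    rw [submatrix_apply, ← h, Equiv.apply_symm_apply, Equiv.apply_symm_apply]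

/-- Symmetry. -/
noncomputable def ChanEquiv.symm {Φ : Matrix ι ι ℂ →ₗ[ℂ] Matrix κ κ ℂ}
    {Φ' : Matrix ι' ι' ℂ →ₗ[ℂ] Matrix κ' κ' ℂ} (E : ChanEquiv Φ Φ') : ChanEquiv Φ' Φ where
  e := E.e.symm
  f := E.f.symm
  map X := by
    have h := E.map (X.submatrix E.e.symm E.e.symm)
    have hX : (X.submatrix E.e.symm E.e.symm).submatrix E.e E.e = X := by
      ext i j
      simp
    rw [hX] at h
    rw [h]
    ext y y'
    simp

theorem ChanEquiv.holevoSet_subset {Φ : Matrix ι ι ℂ →ₗ[ℂ] Matrix κ κ ℂ}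
    {Φ' : Matrix ι' ι' ℂ →ₗ[ℂ] Matrix κ' κ' ℂ} (E : ChanEquiv Φ Φ') :
    holevoSet Φ' ⊆ holevoSet Φ := by
  rintro v ⟨m, w, ρ, hw, hw1, hρ, rfl⟩
  refine ⟨m, w, fun a => (ρ a).submatrix E.e E.e, hw, hw1,
    fun a => isState_submatrix E.e (hρ a), ?_⟩
  have h1 : ∑ a, (w a : ℂ) • Φ' (ρ a) =
      (∑ a, (w a : ℂ) • Φ ((ρ a).submatrix E.e E.e)).submatrix E.f.symm E.f.symm := by
    ext y y'
    simp only [Matrix.sum_apply, Matrix.smul_apply, Matrix.submatrix_apply, E.map]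
  rw [h1, entropy_submatrix]
  congr 1
  refine Finset.sum_congr rfl fun a _ => ?_
  rw [E.map, entropy_submatrix]

theorem ChanEquiv.holevoSet_eq {Φ : Matrix ι ι ℂ →ₗ[ℂ] Matrix κ κ ℂ}
    {Φ' : Matrix ι' ι' ℂ →ₗ[ℂ] Matrix κ' κ' ℂ} (E : ChanEquiv Φ Φ') :
    holevoSet Φ' = holevoSet Φ :=
  Set.Subset.antisymm E.holevoSet_subset E.symm.holevoSet_subset

theorem ChanEquiv.holevo_eq {Φ : Matrix ι ι ℂ →ₗ[ℂ] Matrix κ κ ℂ}
    {Φ' : Matrix ι' ι' ℂ →ₗ[ℂ] Matrix κ' κ' ℂ} (E : ChanEquiv Φ Φ') :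
    holevo Φ' = holevo Φ := by
  rw [holevo, holevo, E.holevoSet_eq]

theorem ChanEquiv.minOut_eq {Φ : Matrix ι ι ℂ →ₗ[ℂ] Matrix κ κ ℂ}
    {Φ' : Matrix ι' ι' ℂ →ₗ[ℂ] Matrix κ' κ' ℂ} (E : ChanEquiv Φ Φ') :
    minOutputEntropy Φ' = minOutputEntropy Φ := by
  have h : ∀ {ι κ ι' κ' : Type} [Fintype ι] [DecidableEq ι] [Fintype κ] [DecidableEq κ]
      [Fintype ι'] [DecidableEq ι'] [Fintype κ'] [DecidableEq κ']
      {Φ : Matrix ι ι ℂ →ₗ[ℂ] Matrix κ κ ℂ} {Φ' : Matrix ι' ι' ℂ →ₗ[ℂ] Matrix κ' κ' ℂ}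
      (E : ChanEquiv Φ Φ'), {x | ∃ ρ : Matrix ι' ι' ℂ, IsState ρ ∧ x = entropy (Φ' ρ)} ⊆
        {x | ∃ ρ : Matrix ι ι ℂ, IsState ρ ∧ x = entropy (Φ ρ)} := by
    intro ι κ ι' κ' _ _ _ _ _ _ _ _ Φ Φ' E
    rintro x ⟨ρ, hρ, rfl⟩
    exact ⟨ρ.submatrix E.e E.e, isState_submatrix E.e hρ, by rw [E.map, entropy_submatrix]⟩
  rw [minOutputEntropy, minOutputEntropy, Set.Subset.antisymm (h E) (h E.symm)]

theorem ChanEquiv.isChannel {Φ : Matrix ι ι ℂ →ₗ[ℂ] Matrix κ κ ℂ}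
    {Φ' : Matrix ι' ι' ℂ →ₗ[ℂ] Matrix κ' κ' ℂ} (E : ChanEquiv Φ Φ') (h : IsChannel Φ) :
    IsChannel Φ' := by
  obtain ⟨m, A, hA, hΦ⟩ := h
  refine ⟨m, fun j => (A j).submatrix E.f.symm E.e.symm, ?_, fun X => ?_⟩
  · have h1 : ∀ j, ((A j).submatrix E.f.symm E.e.symm)ᴴ * (A j).submatrix E.f.symm E.e.symm =
        ((A j)ᴴ * A j).submatrix E.e.symm E.e.symm := by
      intro j
      rw [conjTranspose_submatrix, submatrix_mul_equiv]
    simp only [h1]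
    ext i j
    have h2 := congrFun (congrFun hA (E.e.symm i)) (E.e.symm j)
    rw [Matrix.sum_apply] at h2 ⊢
    simp only [submatrix_apply]
    rw [h2]
    simp [Matrix.one_apply]
  · rw [E.map, hΦ]
    ext y y'
    rw [submatrix_apply, Matrix.sum_apply, Matrix.sum_apply]
    refine Finset.sum_congr rfl fun j _ => ?_
    have h3 : (A j).submatrix E.f.symm E.e.symm * X * ((A j).submatrix E.f.symm E.e.symm)ᴴ =
        (A j * X.submatrix E.e E.e * (A j)ᴴ).submatrix E.f.symm E.f.symm := by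
      have hX : X = (X.submatrix E.e E.e).submatrix E.e.symm E.e.symm := by
        ext i j
        simp
      conv_lhs => rw [hX]
      rw [conjTranspose_submatrix, submatrix_mul_equiv, submatrix_mul_equiv]
    rw [h3, submatrix_apply]

/-- The kernel of a tensor product. -/
theorem tensorMap_single (Φ : Matrix ι ι ℂ →ₗ[ℂ] Matrix κ κ ℂ)
    (Ψ : Matrix ι' ι' ℂ →ₗ[ℂ] Matrix κ' κ' ℂ) (x x' : ι × ι') (y y' : κ × κ') :
    tensorMap Φ Ψ (Matrix.single x x' 1) y y' =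
      Φ (Matrix.single x.1 x'.1 1) y.1 y'.1 * Ψ (Matrix.single x.2 x'.2 1) y.2 y'.2 := by
  show ∑ u, ∑ u', (Matrix.single x x' (1 : ℂ)) u u' *
    (Φ (Matrix.single u.1 u'.1 1) y.1 y'.1 * Ψ (Matrix.single u.2 u'.2 1) y.2 y'.2) = _
  rw [Finset.sum_eq_single x, Finset.sum_eq_single x']
  · simp
  · intro b _ hb
    simp [Matrix.single_apply, hb.symm]
  · intro h
    exact absurd (Finset.mem_univ _) h
  · intro b _ hb
    refine Finset.sum_eq_zero fun c _ => ?_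
    simp [Matrix.single_apply, hb.symm]
  · intro h
    exact absurd (Finset.mem_univ _) h

/-- The kernel of a tensor power. -/
theorem tensorPower_single (Φ : Matrix ι ι ℂ →ₗ[ℂ] Matrix κ κ ℂ) (n : ℕ)
    (x x' : Fin n → ι) (y y' : Fin n → κ) :
    tensorPower Φ n (Matrix.single x x' 1) y y' =
      ∏ i, Φ (Matrix.single (x i) (x' i) 1) (y i) (y' i) := by
  show ∑ u, ∑ u', (Matrix.single x x' (1 : ℂ)) u u' *
    ∏ i, Φ (Matrix.single (u i) (u' i) 1) (y i) (y' i) = _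
  rw [Finset.sum_eq_single x, Finset.sum_eq_single x']
  · simp
  · intro b _ hb
    simp [Matrix.single_apply, hb.symm]
  · intro h
    exact absurd (Finset.mem_univ _) h
  · intro b _ hb
    refine Finset.sum_eq_zero fun c _ => ?_
    simp [Matrix.single_apply, hb.symm]
  · intro h
    exact absurd (Finset.mem_univ _) h

/-- The kernel of a Kraus map. -/
theorem kraus_single {m : ℕ} {Φ : Matrix ι ι ℂ →ₗ[ℂ] Matrix κ κ ℂ} {A : Fin m → Matrix κ ι ℂ}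
    (hΦ : ∀ X, Φ X = ∑ j, A j * X * (A j)ᴴ) (a a' : ι) (b b' : κ) :
    Φ (Matrix.single a a' 1) b b' = ∑ j, A j b a * star (A j b' a') := by
  rw [hΦ, Matrix.sum_apply]
  refine Finset.sum_congr rfl fun j _ => ?_
  rw [Matrix.mul_apply, Finset.sum_eq_single a']
  · rw [Matrix.mul_apply, Finset.sum_eq_single a]
    · simp
    · intro c _ hc
      simp [Ne.symm hc]
    · simp
  · intro c _ hc
    rw [Matrix.mul_apply, Finset.sum_eq_zero, zero_mul]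
    intro d _
    simp [Ne.symm hc]
  · simp

/-- Kraus form of a tensor product. -/
theorem tensorMap_kraus {m m' : ℕ} {Φ : Matrix ι ι ℂ →ₗ[ℂ] Matrix κ κ ℂ}
    {A : Fin m → Matrix κ ι ℂ} (hΦ : ∀ X, Φ X = ∑ j, A j * X * (A j)ᴴ)
    {Ψ : Matrix ι' ι' ℂ →ₗ[ℂ] Matrix κ' κ' ℂ}
    {B : Fin m' → Matrix κ' ι' ℂ} (hΨ : ∀ X, Ψ X = ∑ j, B j * X * (B j)ᴴ)
    (X : Matrix (ι × ι') (ι × ι') ℂ) :
    tensorMap Φ Ψ X = ∑ p : Fin m × Fin m', (A p.1 ⊗ₖ B p.2) * X * (A p.1 ⊗ₖ B p.2)ᴴ := by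
  ext y y'
  rw [Matrix.sum_apply]
  have h2 : ∀ p : Fin m × Fin m', ((A p.1 ⊗ₖ B p.2) * X * (A p.1 ⊗ₖ B p.2)ᴴ) y y' =
      ∑ x, ∑ x', X x x' * ((A p.1 y.1 x.1 * star (A p.1 y'.1 x'.1)) *
        (B p.2 y.2 x.2 * star (B p.2 y'.2 x'.2))) := by
    intro p
    rw [Matrix.mul_apply]
    simp only [Matrix.mul_apply, Finset.sum_mul, conjTranspose_apply, kroneckerMap_apply, star_mul']
    rw [Finset.sum_comm]
    refine Finset.sum_congr rfl fun x _ => Finset.sum_congr rfl fun x' _ => ?_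
    ring
  simp only [h2]
  rw [Finset.sum_comm]
  show ∑ x, ∑ x', X x x' *
    (Φ (Matrix.single x.1 x'.1 1) y.1 y'.1 * Ψ (Matrix.single x.2 x'.2 1) y.2 y'.2) = _
  refine Finset.sum_congr rfl fun x _ => ?_
  rw [Finset.sum_comm]
  refine Finset.sum_congr rfl fun x' _ => ?_
  rw [← Finset.mul_sum, kraus_single hΦ, kraus_single hΨ, Finset.sum_mul_sum,
    Fintype.sum_prod_type]

theorem IsChannel.tensorMap {Φ : Matrix ι ι ℂ →ₗ[ℂ] Matrix κ κ ℂ}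
    {Ψ : Matrix ι' ι' ℂ →ₗ[ℂ] Matrix κ' κ' ℂ} (h : IsChannel Φ) (h' : IsChannel Ψ) :
    IsChannel (tensorMap Φ Ψ) := by
  obtain ⟨m, A, hA, hΦ⟩ := h
  obtain ⟨m', B, hB, hΨ⟩ := h'
  refine ⟨m * m', fun j => A (finProdFinEquiv.symm j).1 ⊗ₖ B (finProdFinEquiv.symm j).2, ?_,
    fun X => ?_⟩
  · rw [Equiv.sum_comp finProdFinEquiv.symm (fun p : Fin m × Fin m' =>
      (A p.1 ⊗ₖ B p.2)ᴴ * (A p.1 ⊗ₖ B p.2))]
    have h1 : ∀ p : Fin m × Fin m', (A p.1 ⊗ₖ B p.2)ᴴ * (A p.1 ⊗ₖ B p.2) =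
        ((A p.1)ᴴ * A p.1) ⊗ₖ ((B p.2)ᴴ * B p.2) := by
      intro p
      rw [conjTranspose_kronecker, mul_kronecker_mul]
    simp only [h1]
    rw [Fintype.sum_prod_type]
    have h2 : (∑ x, ∑ y, ((A x)ᴴ * A x) ⊗ₖ ((B y)ᴴ * B y)) =
        (∑ x, (A x)ᴴ * A x) ⊗ₖ (∑ y, (B y)ᴴ * B y) := by
      ext i j
      simp only [Matrix.sum_apply, kroneckerMap_apply, Finset.sum_mul_sum]
    rw [h2, hA, hB, one_kronecker_one]
  · rw [tensorMap_kraus hΦ hΨ, Equiv.sum_comp finProdFinEquiv.symm (fun p : Fin m × Fin m' =>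
      (A p.1 ⊗ₖ B p.2) * X * (A p.1 ⊗ₖ B p.2)ᴴ)]

theorem IsChannel.trace {Φ : Matrix ι ι ℂ →ₗ[ℂ] Matrix κ κ ℂ} (h : IsChannel Φ)
    (X : Matrix ι ι ℂ) : (Φ X).trace = X.trace := by
  obtain ⟨m, A, hA, hΦ⟩ := h
  rw [hΦ, trace_sum]
  have h1 : ∀ j, (A j * X * (A j)ᴴ).trace = ((A j)ᴴ * A j * X).trace := by
    intro j
    rw [trace_mul_comm, ← Matrix.mul_assoc]
  simp only [h1]
  rw [← trace_sum, ← Matrix.sum_mul, hA, Matrix.one_mul]

theorem IsChannel.posSemidef {Φ : Matrix ι ι ℂ →ₗ[ℂ] Matrix κ κ ℂ} (h : IsChannel Φ)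
    {X : Matrix ι ι ℂ} (hX : X.PosSemidef) : (Φ X).PosSemidef := by
  obtain ⟨m, A, hA, hΦ⟩ := h
  rw [hΦ]
  exact posSemidef_sum _ fun j _ => hX.mul_mul_conjTranspose_same _

theorem IsChannel.isState {Φ : Matrix ι ι ℂ →ₗ[ℂ] Matrix κ κ ℂ} (h : IsChannel Φ)
    {X : Matrix ι ι ℂ} (hX : IsState X) : IsState (Φ X) :=
  ⟨h.posSemidef hX.1, by rw [h.trace, hX.2]⟩

/-- Block positivity. -/
theorem IsChannel.block {Φ : Matrix ι ι ℂ →ₗ[ℂ] Matrix κ κ ℂ} (h : IsChannel Φ)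
    {X : Matrix (ι ⊕ ι) (ι ⊕ ι) ℂ} (hX : X.PosSemidef) :
    (fromBlocks (Φ X.toBlocks₁₁) (Φ X.toBlocks₁₂) (Φ X.toBlocks₂₁)
      (Φ X.toBlocks₂₂)).PosSemidef := by
  obtain ⟨m, A, hA, hΦ⟩ := h
  have h : fromBlocks (Φ X.toBlocks₁₁) (Φ X.toBlocks₁₂) (Φ X.toBlocks₂₁) (Φ X.toBlocks₂₂)
      = ∑ k : Fin m, fromBlocks (A k) 0 0 (A k) * X * (fromBlocks (A k) 0 0 (A k))ᴴ := by
    have hs : ∀ k : Fin m,
        fromBlocks (A k) 0 0 (A k) * X * (fromBlocks (A k) 0 0 (A k))ᴴ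
        = fromBlocks (A k * X.toBlocks₁₁ * (A k)ᴴ) (A k * X.toBlocks₁₂ * (A k)ᴴ)
          (A k * X.toBlocks₂₁ * (A k)ᴴ) (A k * X.toBlocks₂₂ * (A k)ᴴ) := by
      intro k
      conv_lhs => rw [← fromBlocks_toBlocks X]
      rw [fromBlocks_conjTranspose, fromBlocks_multiply, fromBlocks_multiply]
      simp
    simp only [hs]
    rw [hΦ, hΦ, hΦ, hΦ]
    ext i j
    rcases i with i | i <;> rcases j with j | j <;> simp [Matrix.sum_apply]
  rw [h]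
  exact posSemidef_sum _ fun k _ => hX.mul_mul_conjTranspose_same _

end basic

section equivs

variable {ι κ ι' κ' : Type} [Fintype ι] [DecidableEq ι] [Fintype κ] [DecidableEq κ]
  [Fintype ι'] [DecidableEq ι'] [Fintype κ'] [DecidableEq κ']

/-- `(Fin (n+1) → α) × β ≃ α × ((Fin n → α) × β)`. -/
def consProd (n : ℕ) (α β : Type) : (Fin (n + 1) → α) × β ≃ α × ((Fin n → α) × β) where
  toFun p := (p.1 0, (Fin.tail p.1, p.2))
  invFun q := (Fin.cons q.1 q.2.1, q.2.2)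
  left_inv p := by simp
  right_inv q := by simp

/-- The first factor splits off a tensor power with a side system. -/
noncomputable def ceSucc (Φ : Matrix ι ι ℂ →ₗ[ℂ] Matrix κ κ ℂ)
    (Ψ : Matrix ι' ι' ℂ →ₗ[ℂ] Matrix κ' κ' ℂ) (n : ℕ) :
    ChanEquiv (tensorMap (tensorPower Φ (n + 1)) Ψ) (tensorMap Φ (tensorMap (tensorPower Φ n) Ψ)) :=
  ChanEquiv.ofKernel _ _ (consProd n ι ι') (consProd n κ κ') (by
    intro x x' y y'
    rw [tensorMap_single, tensorMap_single, tensorMap_single, tensorPower_single,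
      tensorPower_single, Fin.prod_univ_succ]
    simp only [consProd, Equiv.coe_fn_mk, Fin.tail]
    ring)

/-- The zeroth tensor power with a side system. -/
noncomputable def ceZero (Φ : Matrix ι ι ℂ →ₗ[ℂ] Matrix κ κ ℂ)
    (Ψ : Matrix ι' ι' ℂ →ₗ[ℂ] Matrix κ' κ' ℂ) :
    ChanEquiv (tensorMap (tensorPower Φ 0) Ψ) Ψ :=
  ChanEquiv.ofKernel _ _ (Equiv.uniqueProd ι' (Fin 0 → ι)) (Equiv.uniqueProd κ' (Fin 0 → κ)) (by
    intro x x' y y'
    rw [tensorMap_single, tensorPower_single]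
    simp [Equiv.uniqueProd])

/-- Tensor powers of tensor products. -/
noncomputable def cePow (Φ : Matrix ι ι ℂ →ₗ[ℂ] Matrix κ κ ℂ)
    (Ψ : Matrix ι' ι' ℂ →ₗ[ℂ] Matrix κ' κ' ℂ) (n : ℕ) :
    ChanEquiv (tensorPower (tensorMap Φ Ψ) n) (tensorMap (tensorPower Φ n) (tensorPower Ψ n)) :=
  ChanEquiv.ofKernel _ _ (Equiv.arrowProdEquivProdArrow (Fin n) (fun _ => ι) (fun _ => ι'))
    (Equiv.arrowProdEquivProdArrow (Fin n) (fun _ => κ) (fun _ => κ')) (by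
    intro x x' y y'
    rw [tensorMap_single, tensorPower_single, tensorPower_single, tensorPower_single]
    simp only [tensorMap_single, Equiv.arrowProdEquivProdArrow, Equiv.coe_fn_mk,
      Finset.prod_mul_distrib])

/-- Splitting a tensor power. -/
noncomputable def ceSplit (Φ : Matrix ι ι ℂ →ₗ[ℂ] Matrix κ κ ℂ) (n : ℕ) :
    ChanEquiv (tensorPower Φ (n + 1)) (tensorMap Φ (tensorPower Φ n)) :=
  ChanEquiv.ofKernel _ _ (Fin.consEquiv (fun _ => ι)).symm (Fin.consEquiv (fun _ => κ)).symm (by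
    intro x x' y y'
    rw [tensorMap_single, tensorPower_single, tensorPower_single, Fin.prod_univ_succ]
    simp only [Fin.consEquiv, Equiv.coe_fn_symm_mk, Fin.tail])

theorem IsChannel.tensorPower_zero (Φ : Matrix ι ι ℂ →ₗ[ℂ] Matrix κ κ ℂ) :
    IsChannel (tensorPower Φ 0) := by
  refine ⟨1, fun _ => Matrix.of fun _ _ => 1, ?_, fun X => ?_⟩
  · ext i j
    have hij : i = j := Subsingleton.elim _ _
    subst hij
    simp [Matrix.mul_apply]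
  · ext y y'
    rw [map_eq_sum_single]
    simp only [tensorPower_single]
    simp [Matrix.mul_apply, Finset.sum_mul]

theorem IsChannel.tensorPower {Φ : Matrix ι ι ℂ →ₗ[ℂ] Matrix κ κ ℂ} (h : IsChannel Φ) (n : ℕ) :
    IsChannel (tensorPower Φ n) := by
  induction n with
  | zero => exact IsChannel.tensorPower_zero Φ
  | succ n ih => exact (ceSplit Φ n).symm.isChannel (h.tensorMap ih)

end equivs

end Vale.Agent.P358
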