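import Vale.Agent.P358.H888.A

set_option autoImplicit false
set_option linter.all false

/-!
Entropy of product states, subadditivity with a classical first marginal, entropy at most the
logarithm of the dimension, product ensembles.
-/

namespace Vale.Agent.P358

open Matrix
open scoped ComplexOrder Kronecker

section ent

variable {ι κ ι' κ' : Type} [Fintype ι] [DecidableEq ι] [Fintype κ] [DecidableEq κ]
  [Fintype ι'] [DecidableEq ι'] [Fintype κ'] [DecidableEq κ']

theorem kron_posSemidef {A : Matrix ι ι ℂ} {B : Matrix κ κ ℂ} (hA : A.PosSemidef)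
    (hB : B.PosSemidef) : (A ⊗ₖ B).PosSemidef := by
  obtain ⟨C, hC⟩ := exists_sqrt hA
  obtain ⟨D, hD⟩ := exists_sqrt hB
  have e : A ⊗ₖ B = (C ⊗ₖ D)ᴴ * (C ⊗ₖ D) := by
    rw [conjTranspose_kronecker, ← mul_kronecker_mul, ← hC, ← hD]
  rw [e]
  exact posSemidef_conjTranspose_mul_self _

theorem kron_isState {A : Matrix ι ι ℂ} {B : Matrix κ κ ℂ} (hA : IsState A)
    (hB : IsState B) : IsState (A ⊗ₖ B) := by
  refine ⟨kron_posSemidef hA.1 hB.1, ?_⟩
  rw [trace_kronecker, hA.2, hB.2, mul_one]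

theorem eta_mul {x y : ℝ} : eta (x * y) = y * eta x + x * eta y := by
  rw [eta_eq, eta_eq, eta_eq, Real.negMulLog_mul]
  ring

/-- Entropy of a product state. -/
theorem entropy_kron {A : Matrix ι ι ℂ} {B : Matrix κ κ ℂ} (hA : IsState A)
    (hB : IsState B) : entropy (A ⊗ₖ B) = entropy A + entropy B := by
  obtain ⟨U, hU, _, hUA⟩ := exists_unitary_diag hA.1.1
  obtain ⟨V, hV, _, hVB⟩ := exists_unitary_diag hB.1.1
  set d := hA.1.1.eigenvalues with hd
  set d' := hB.1.1.eigenvalues with hd'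
  have hdiag : (diagonal (fun p : ι × κ => ((d p.1 * d' p.2 : ℝ) : ℂ)) :
      Matrix (ι × κ) (ι × κ) ℂ) =
      diagonal (fun i => (d i : ℂ)) ⊗ₖ diagonal (fun j => (d' j : ℂ)) := by
    rw [diagonal_kronecker_diagonal]
    congr 1
    funext p
    push_cast
    rfl
  have e : A ⊗ₖ B = (U ⊗ₖ V) * diagonal (fun p : ι × κ => ((d p.1 * d' p.2 : ℝ) : ℂ)) *
      (U ⊗ₖ V)ᴴ := by
    rw [hdiag, conjTranspose_kronecker, ← mul_kronecker_mul, ← mul_kronecker_mul, ← hUA, ← hVB]
  have hUV : (U ⊗ₖ V)ᴴ * (U ⊗ₖ V) = 1 := by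
    rw [conjTranspose_kronecker, ← mul_kronecker_mul, hU, hV, one_kronecker_one]
  rw [entropy_of_conj hUV _ e, entropy_eq_sum_eta hA.1.1, entropy_eq_sum_eta hB.1.1]
  have h1 : ∀ p : ι × κ, -(d p.1 * d' p.2 * Real.logb 2 (d p.1 * d' p.2)) =
      d' p.2 * eta (d p.1) + d p.1 * eta (d' p.2) := fun p => eta_mul
  simp only [h1]
  rw [Fintype.sum_prod_type]
  simp only [Finset.sum_add_distrib]
  have s1 : ∑ i, d i = 1 := sum_eigenvalues hA.1.1 hA.2
  have s2 : ∑ i, d' i = 1 := sum_eigenvalues hB.1.1 hB.2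
  simp only [← Finset.sum_mul, ← Finset.mul_sum, s1, s2, one_mul]
  rfl

/-- The second marginal (partial trace over the first factor). -/
noncomputable def ptr (X : Matrix (ι × κ) (ι × κ) ℂ) : Matrix κ κ ℂ :=
  Matrix.of fun k k' => ∑ b, X (b, k) (b, k')

omit [DecidableEq ι] [DecidableEq κ] in
theorem ptr_eq_sum (X : Matrix (ι × κ) (ι × κ) ℂ) :
    ptr X = ∑ b, X.submatrix (fun k => (b, k)) (fun k => (b, k)) := by
  ext k k'
  simp [ptr, Matrix.sum_apply]

omit [DecidableEq ι] [DecidableEq κ] in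
theorem ptr_posSemidef {X : Matrix (ι × κ) (ι × κ) ℂ} (hX : X.PosSemidef) :
    (ptr X).PosSemidef := by
  rw [ptr_eq_sum]
  exact posSemidef_sum _ fun b _ => hX.submatrix _

omit [DecidableEq ι] [DecidableEq κ] in
theorem ptr_trace (X : Matrix (ι × κ) (ι × κ) ℂ) : (ptr X).trace = X.trace := by
  simp only [Matrix.trace, diag_apply, ptr, of_apply]
  rw [Fintype.sum_prod_type, Finset.sum_comm]

/-- Subadditivity of the Shannon entropy for two different factors. -/
theorem shannon_le_two (p : ι × κ → ℝ) (hp : ∀ x, 0 ≤ p x) (hp1 : ∑ x, p x = 1) :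
    ∑ x, eta (p x) ≤ ∑ b, eta (∑ k, p (b, k)) + ∑ k, eta (∑ b, p (b, k)) := by
  set q : ι → ℝ := fun b => ∑ k, p (b, k) with hq
  set r : κ → ℝ := fun k => ∑ b, p (b, k) with hr
  have hq0 : ∀ b, 0 ≤ q b := fun b => Finset.sum_nonneg fun k _ => hp _
  have hr0 : ∀ k, 0 ≤ r k := fun k => Finset.sum_nonneg fun b _ => hp _
  have hq1 : ∑ b, q b = 1 := by rw [hq, ← hp1, Fintype.sum_prod_type]
  have hr1 : ∑ k, r k = 1 := by rw [hr, ← hp1, Fintype.sum_prod_type, Finset.sum_comm]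
  have hle : ∀ x, p x ≤ q x.1 := fun x =>
    Finset.single_le_sum (f := fun k => p (x.1, k)) (fun k _ => hp _) (Finset.mem_univ x.2)
  have hle' : ∀ x, p x ≤ r x.2 := fun x =>
    Finset.single_le_sum (f := fun b => p (b, x.2)) (fun k _ => hp _) (Finset.mem_univ x.1)
  have h1 := gibbs Finset.univ p (fun x => q x.1 * r x.2) (fun x _ => hp x)
    (fun x _ => mul_nonneg (hq0 _) (hr0 _))
    (by
      intro x _ h0
      rcases mul_eq_zero.1 h0 with h | h
      · have := hle x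
        rw [h] at this
        exact le_antisymm this (hp x)
      · have := hle' x
        rw [h] at this
        exact le_antisymm this (hp x))
    (by
      rw [hp1, Fintype.sum_prod_type]
      simp only [← Finset.mul_sum, hr1, mul_one, hq1, le_refl])
  refine h1.trans (le_of_eq ?_)
  have h2 : ∀ x, -(p x * Real.logb 2 (q x.1 * r x.2)) =
      -(p x * Real.logb 2 (q x.1)) + -(p x * Real.logb 2 (r x.2)) := by
    intro x
    rcases (hp x).eq_or_lt with h0 | h0
    · simp [← h0]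
    · have a1 : 0 < q x.1 := h0.trans_le (hle x)
      have a2 : 0 < r x.2 := h0.trans_le (hle' x)
      rw [Real.logb_mul a1.ne' a2.ne']
      ring
  simp only [h2]
  rw [Finset.sum_add_distrib]
  congr 1
  · rw [Fintype.sum_prod_type]
    refine Finset.sum_congr rfl fun b _ => ?_
    rw [Finset.sum_neg_distrib]
    show -∑ x, p (b, x) * Real.logb 2 (q b) = _
    rw [← Finset.sum_mul]
    rfl
  · rw [Fintype.sum_prod_type, Finset.sum_comm]
    refine Finset.sum_congr rfl fun k _ => ?_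
    rw [Finset.sum_neg_distrib]
    show -∑ x, p (x, k) * Real.logb 2 (r k) = _
    rw [← Finset.sum_mul]
    rfl

/-- Subadditivity of the entropy, with the diagonal of the first marginal. -/
theorem entropy_le_two {X : Matrix (ι × κ) (ι × κ) ℂ} (hX : IsState X) :
    entropy X ≤ ∑ b, eta (∑ k, (X (b, k) (b, k)).re) + entropy (ptr X) := by
  have hP : (ptr X).PosSemidef := ptr_posSemidef hX.1
  obtain ⟨V, hV, hV', hVX⟩ := exists_unitary_diag hP.1
  set W : Matrix (ι × κ) (ι × κ) ℂ := (1 : Matrix ι ι ℂ) ⊗ₖ V with hW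
  have hWW : W * Wᴴ = 1 := by
    rw [hW, conjTranspose_kronecker, ← mul_kronecker_mul, hV', conjTranspose_one, one_mul,
      one_kronecker_one]
  have hWW' : Wᴴ * W = 1 := by
    rw [hW, conjTranspose_kronecker, ← mul_kronecker_mul, hV, conjTranspose_one, one_mul,
      one_kronecker_one]
  have h1 := entropy_le_conj_diag hX.1 hWW hWW'
  have hY : (Wᴴ * X * W).PosSemidef := hX.1.conjTranspose_mul_mul_same W
  have hent : ∀ b k k', (Wᴴ * X * W) (b, k) (b, k') =
      (Vᴴ * X.submatrix (fun k => (b, k)) (fun k => (b, k)) * V) k k' := by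
    intro b k k'
    have e1 : ∀ (x : ι × κ), (W x (b, k')) = if x.1 = b then V x.2 k' else 0 := by
      intro x
      simp [hW, kroneckerMap_apply, Matrix.one_apply]
    have e2 : ∀ (x : ι × κ), (Wᴴ (b, k) x) = if x.1 = b then (Vᴴ k x.2) else 0 := by
      intro x
      simp only [hW, conjTranspose_apply, kroneckerMap_apply, Matrix.one_apply]
      split_ifs <;> simp
    rw [Matrix.mul_apply, Matrix.mul_apply, Fintype.sum_prod_type]
    rw [Finset.sum_eq_single b]
    · refine Finset.sum_congr rfl fun l _ => ?_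
      rw [e1, if_pos rfl]
      congr 1
      rw [Matrix.mul_apply, Matrix.mul_apply, Fintype.sum_prod_type, Finset.sum_eq_single b]
      · refine Finset.sum_congr rfl fun l' _ => ?_
        rw [e2, if_pos rfl]
        rfl
      · intro c _ hc
        refine Finset.sum_eq_zero fun l' _ => ?_
        rw [e2, if_neg hc, zero_mul]
      · intro h
        exact absurd (Finset.mem_univ _) h
    · intro c _ hc
      refine Finset.sum_eq_zero fun l' _ => ?_
      rw [e1, if_neg hc, mul_zero]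
    · intro h
      exact absurd (Finset.mem_univ _) h
  have hnn : ∀ x, 0 ≤ ((Wᴴ * X * W) x x).re := fun x => by
    have h6 := hY.diag_nonneg (i := x)
    rw [Complex.nonneg_iff] at h6
    exact h6.1
  have hdiagsum : ∀ b, ∑ k, ((Wᴴ * X * W) (b, k) (b, k)).re = ∑ k, (X (b, k) (b, k)).re := by
    intro b
    have h3 : (Vᴴ * X.submatrix (fun k => (b, k)) (fun k => (b, k)) * V).trace =
        (X.submatrix (fun k => (b, k)) (fun k => (b, k))).trace := by
      rw [trace_mul_comm, ← Matrix.mul_assoc, hV', Matrix.one_mul]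
    have h4 := congrArg Complex.re h3
    simp only [Matrix.trace, diag_apply, Complex.re_sum, submatrix_apply] at h4
    rw [← h4]
    refine Finset.sum_congr rfl fun k _ => ?_
    rw [hent]
  have hlam : ∀ k, ∑ b, ((Wᴴ * X * W) (b, k) (b, k)).re = hP.1.eigenvalues k := by
    intro k
    have h3 : Vᴴ * ptr X * V = diagonal (fun i => (hP.1.eigenvalues i : ℂ)) := by
      conv_lhs => rw [hVX]
      simp only [Matrix.mul_assoc, hV, Matrix.mul_one]
      rw [← Matrix.mul_assoc, hV, Matrix.one_mul]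
    have h4 : Vᴴ * ptr X * V =
        ∑ b, (Vᴴ * X.submatrix (fun k => (b, k)) (fun k => (b, k)) * V) := by
      rw [ptr_eq_sum, Matrix.mul_sum, Matrix.sum_mul]
    have h5 := congrFun (congrFun (h4.symm.trans h3) k) k
    rw [diagonal_apply_eq, Matrix.sum_apply] at h5
    have h6 := congrArg Complex.re h5
    rw [Complex.ofReal_re, Complex.re_sum] at h6
    rw [← h6]
    refine Finset.sum_congr rfl fun b _ => ?_
    rw [hent]
  have hsum : ∑ x, ((Wᴴ * X * W) x x).re = 1 := by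
    rw [Fintype.sum_prod_type]
    simp only [hdiagsum]
    have h7 := congrArg Complex.re hX.2
    rw [Matrix.trace, Complex.re_sum, Complex.one_re, Fintype.sum_prod_type] at h7
    exact h7
  have h2 := shannon_le_two (fun x => ((Wᴴ * X * W) x x).re) hnn hsum
  simp only [hdiagsum, hlam] at h2
  rw [entropy_eq_sum_eta hP.1]
  exact h1.trans h2

/-- The entropy is at most the logarithm of the dimension. -/
theorem entropy_le_logb_card {ρ : Matrix ι ι ℂ} (h : IsState ρ) :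
    entropy ρ ≤ Real.logb 2 (Fintype.card ι) := by
  have hne : Nonempty ι := by
    by_contra hcon
    rw [not_nonempty_iff] at hcon
    have h1 := h.2
    rw [Matrix.trace, Fintype.sum_empty] at h1
    exact zero_ne_one h1
  have hc : (0 : ℝ) < Fintype.card ι := by exact_mod_cast Fintype.card_pos
  rw [entropy_eq_sum_eta h.1.1]
  have h1 := gibbs Finset.univ h.1.1.eigenvalues (fun _ => 1 / (Fintype.card ι : ℝ))
    (fun x _ => h.1.eigenvalues_nonneg x) (fun x _ => by positivity)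
    (fun x _ h0 => absurd h0 (by positivity))
    (by
      rw [sum_eigenvalues h.1.1 h.2, Finset.sum_const, Finset.card_univ, nsmul_eq_mul]
      rw [mul_one_div, div_self hc.ne'])
  refine h1.trans (le_of_eq ?_)
  rw [Finset.sum_neg_distrib, ← Finset.sum_mul, sum_eigenvalues h.1.1 h.2, one_div,
    Real.logb_inv]
  ring

/-- The value of an ensemble of a channel is at most the logarithm of the output dimension. -/
theorem IsChannel.holevoSet_le {Φ : Matrix ι ι ℂ →ₗ[ℂ] Matrix κ κ ℂ} (h : IsChannel Φ) {v : ℝ}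
    (hv : v ∈ holevoSet Φ) : v ≤ Real.logb 2 (Fintype.card κ) := by
  obtain ⟨m, w, ρ, hw, hw1, hρ, rfl⟩ := hv
  have h1 : IsState (∑ a, (w a : ℂ) • Φ (ρ a)) := isState_sum hw hw1 fun a => h.isState (hρ a)
  have h2 := entropy_le_logb_card h1
  have h3 : 0 ≤ ∑ a, w a * entropy (Φ (ρ a)) :=
    Finset.sum_nonneg fun a _ => mul_nonneg (hw a) (entropy_nonneg (h.isState (hρ a)))
  linarith

theorem IsChannel.bddAbove {Φ : Matrix ι ι ℂ →ₗ[ℂ] Matrix κ κ ℂ} (h : IsChannel Φ) :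
    BddAbove (holevoSet Φ) :=
  ⟨_, fun _ hv => h.holevoSet_le hv⟩

/-- Tensor products of maps on product matrices. -/
theorem tensorMap_kron (Φ : Matrix ι ι ℂ →ₗ[ℂ] Matrix κ κ ℂ)
    (Ψ : Matrix ι' ι' ℂ →ₗ[ℂ] Matrix κ' κ' ℂ) (A : Matrix ι ι ℂ) (B : Matrix ι' ι' ℂ) :
    tensorMap Φ Ψ (A ⊗ₖ B) = Φ A ⊗ₖ Ψ B := by
  ext y y'
  rw [kroneckerMap_apply, map_eq_sum_single Φ A, map_eq_sum_single Ψ B]
  show ∑ x, ∑ x', (A ⊗ₖ B) x x' *
    (Φ (Matrix.single x.1 x'.1 1) y.1 y'.1 * Ψ (Matrix.single x.2 x'.2 1) y.2 y'.2) = _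
  simp only [kroneckerMap_apply, Fintype.sum_prod_type]
  rw [Finset.sum_mul_sum]
  refine Finset.sum_congr rfl fun a _ => Finset.sum_congr rfl fun b _ => ?_
  rw [Finset.sum_mul_sum]
  refine Finset.sum_congr rfl fun a' _ => Finset.sum_congr rfl fun b' _ => ?_
  ring

/-- The Holevo quantity is superadditive: product ensembles. -/
theorem add_mem_holevoSet {Φ : Matrix ι ι ℂ →ₗ[ℂ] Matrix κ κ ℂ}
    {Ψ : Matrix ι' ι' ℂ →ₗ[ℂ] Matrix κ' κ' ℂ} (hΦ : IsChannel Φ) (hΨ : IsChannel Ψ) {v v' : ℝ}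
    (hv : v ∈ holevoSet Φ) (hv' : v' ∈ holevoSet Ψ) : v + v' ∈ holevoSet (tensorMap Φ Ψ) := by
  obtain ⟨m, w, ρ, hw, hw1, hρ, rfl⟩ := hv
  obtain ⟨m', w', ρ', hw', hw1', hρ', rfl⟩ := hv'
  let E : (Fin m × Fin m') ≃ Fin (m * m') := finProdFinEquiv
  have key : ∀ {M : Type} [AddCommMonoid M] (g : Fin m × Fin m' → M),
      ∑ j, g (E.symm j) = ∑ a, ∑ b, g (a, b) := by
    intro M _ g
    rw [Equiv.sum_comp E.symm g, Fintype.sum_prod_type]
  refine ⟨m * m', fun j => w (E.symm j).1 * w' (E.symm j).2,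
    fun j => ρ (E.symm j).1 ⊗ₖ ρ' (E.symm j).2, fun j => mul_nonneg (hw _) (hw' _), ?_,
    fun j => kron_isState (hρ _) (hρ' _), ?_⟩
  · rw [key (fun p => w p.1 * w' p.2)]
    simp only [← Finset.mul_sum, hw1', mul_one, hw1]
  · rw [key (fun p => ((w p.1 * w' p.2 : ℝ) : ℂ) • tensorMap Φ Ψ (ρ p.1 ⊗ₖ ρ' p.2)),
      key (fun p => w p.1 * w' p.2 * entropy (tensorMap Φ Ψ (ρ p.1 ⊗ₖ ρ' p.2)))]
    have havg : ∑ a, ∑ b, ((w a * w' b : ℝ) : ℂ) • tensorMap Φ Ψ (ρ a ⊗ₖ ρ' b) =
        (∑ a, (w a : ℂ) • Φ (ρ a)) ⊗ₖ (∑ b, (w' b : ℂ) • Ψ (ρ' b)) := by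
      ext y y'
      simp only [tensorMap_kron, Matrix.sum_apply, Matrix.smul_apply, kroneckerMap_apply,
        smul_eq_mul]
      rw [Finset.sum_mul_sum]
      refine Finset.sum_congr rfl fun a _ => Finset.sum_congr rfl fun b _ => ?_
      push_cast
      ring
    rw [havg, entropy_kron (isState_sum hw hw1 fun a => hΦ.isState (hρ a))
      (isState_sum hw' hw1' fun a => hΨ.isState (hρ' a))]
    have hent : ∀ a b, w a * w' b * entropy (tensorMap Φ Ψ (ρ a ⊗ₖ ρ' b)) =
        w' b * (w a * entropy (Φ (ρ a))) + w a * (w' b * entropy (Ψ (ρ' b))) := by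
      intro a b
      rw [tensorMap_kron, entropy_kron (hΦ.isState (hρ a)) (hΨ.isState (hρ' b))]
      ring
    simp only [hent, Finset.sum_add_distrib, ← Finset.mul_sum, ← Finset.sum_mul, hw1, hw1',
      one_mul]
    ring

/-- Superadditivity of the Holevo capacity. -/
theorem holevo_add_le [Nonempty ι] [Nonempty ι'] {Φ : Matrix ι ι ℂ →ₗ[ℂ] Matrix κ κ ℂ}
    {Ψ : Matrix ι' ι' ℂ →ₗ[ℂ] Matrix κ' κ' ℂ} (hΦ : IsChannel Φ) (hΨ : IsChannel Ψ) :
    holevo Φ + holevo Ψ ≤ holevo (tensorMap Φ Ψ) := by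
  have h1 : ∀ v ∈ holevoSet Φ, v + holevo Ψ ≤ holevo (tensorMap Φ Ψ) := by
    intro v hv
    have h2 : holevo Ψ ≤ holevo (tensorMap Φ Ψ) - v := by
      refine csSup_le (holevoSet_nonempty _) fun v' hv' => ?_
      have := le_csSup (hΦ.tensorMap hΨ).bddAbove (add_mem_holevoSet hΦ hΨ hv hv')
      rw [holevo]
      linarith
    linarith
  have h3 : holevo Φ ≤ holevo (tensorMap Φ Ψ) - holevo Ψ := by
    refine csSup_le (holevoSet_nonempty _) fun v hv => ?_
    have := h1 v hv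
    linarith
  linarith

/-- The set of output entropies. -/
theorem outSet_bddBelow {Φ : Matrix ι ι ℂ →ₗ[ℂ] Matrix κ κ ℂ} (h : IsChannel Φ) :
    BddBelow {x | ∃ ρ : Matrix ι ι ℂ, IsState ρ ∧ x = entropy (Φ ρ)} :=
  ⟨0, by rintro x ⟨ρ, hρ, rfl⟩; exact entropy_nonneg (h.isState hρ)⟩

theorem exists_isState [Nonempty ι] : ∃ ρ : Matrix ι ι ℂ, IsState ρ := by
  obtain ⟨i⟩ := (inferInstance : Nonempty ι)
  refine ⟨diagonal (Pi.single i 1), ?_, ?_⟩
  · refine PosSemidef.diagonal fun j => ?_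
    by_cases h : j = i
    · subst h; simp
    · simp [h]
  · rw [trace_diagonal]
    simp

theorem outSet_nonempty [Nonempty ι] (Φ : Matrix ι ι ℂ →ₗ[ℂ] Matrix κ κ ℂ) :
    {x | ∃ ρ : Matrix ι ι ℂ, IsState ρ ∧ x = entropy (Φ ρ)}.Nonempty := by
  obtain ⟨ρ, hρ⟩ := exists_isState (ι := ι)
  exact ⟨_, ρ, hρ, rfl⟩

theorem minOut_le {Φ : Matrix ι ι ℂ →ₗ[ℂ] Matrix κ κ ℂ} (h : IsChannel Φ)
    {ρ : Matrix ι ι ℂ} (hρ : IsState ρ) : minOutputEntropy Φ ≤ entropy (Φ ρ) :=
  csInf_le (outSet_bddBelow h) ⟨ρ, hρ, rfl⟩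

/-- Subadditivity of the minimum output entropy (product inputs). -/
theorem minOut_le_add [Nonempty ι] [Nonempty ι'] {Φ : Matrix ι ι ℂ →ₗ[ℂ] Matrix κ κ ℂ}
    {Ψ : Matrix ι' ι' ℂ →ₗ[ℂ] Matrix κ' κ' ℂ} (hΦ : IsChannel Φ) (hΨ : IsChannel Ψ) :
    minOutputEntropy (tensorMap Φ Ψ) ≤ minOutputEntropy Φ + minOutputEntropy Ψ := by
  have h1 : ∀ ρ : Matrix ι ι ℂ, IsState ρ →
      minOutputEntropy (tensorMap Φ Ψ) - entropy (Φ ρ) ≤ minOutputEntropy Ψ := by
    intro ρ hρ
    refine le_csInf (outSet_nonempty _) ?_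
    rintro x ⟨σ, hσ, rfl⟩
    have := minOut_le (hΦ.tensorMap hΨ) (kron_isState hρ hσ)
    rw [tensorMap_kron, entropy_kron (hΦ.isState hρ) (hΨ.isState hσ)] at this
    linarith
  have h3 : minOutputEntropy (tensorMap Φ Ψ) - minOutputEntropy Ψ ≤ minOutputEntropy Φ := by
    refine le_csInf (outSet_nonempty _) ?_
    rintro x ⟨ρ, hρ, rfl⟩
    have := h1 ρ hρ
    linarith
  linarith

end ent

end Vale.Agent.P358
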