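import Vale.Agent.P358.H888.B

set_option autoImplicit false
set_option linter.all false

/-!
Strong additivity: the generalized amplitude-damping channel next to an arbitrary channel.
-/

namespace Vale.Agent.P358

open Matrix
open scoped ComplexOrder Kronecker

section blk

variable {ι κ : Type} [Fintype ι] [DecidableEq ι] [Fintype κ] [DecidableEq κ]

/-- Two blocks. -/
def twoE (κ : Type) : Fin 2 × κ ≃ κ ⊕ κ where
  toFun p := if p.1 = 0 then Sum.inl p.2 else Sum.inr p.2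
  invFun := Sum.elim (fun k => (0, k)) (fun k => (1, k))
  left_inv p := by
    obtain ⟨a, k⟩ := p
    rcases (by omega : a = 0 ∨ a = 1) with rfl | rfl <;> simp
  right_inv s := by
    rcases s with s | s <;> simp

/-- The blocks of a matrix on `Fin 2 × ι`. -/
def blk (X : Matrix (Fin 2 × ι) (Fin 2 × ι) ℂ) (a b : Fin 2) : Matrix ι ι ℂ :=
  X.submatrix (fun k => (a, k)) (fun k => (b, k))

theorem tensorMap_two (Φ : Matrix (Fin 2) (Fin 2) ℂ →ₗ[ℂ] Matrix (Fin 2) (Fin 2) ℂ)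
    (Ψ : Matrix ι ι ℂ →ₗ[ℂ] Matrix κ κ ℂ) (X : Matrix (Fin 2 × ι) (Fin 2 × ι) ℂ) (b b' : Fin 2)
    (y y' : κ) :
    tensorMap Φ Ψ X (b, y) (b', y') =
      ∑ a : Fin 2, ∑ a' : Fin 2, Φ (Matrix.single a a' 1) b b' * Ψ (blk X a a') y y' := by
  show ∑ x, ∑ x', X x x' *
    (Φ (Matrix.single x.1 x'.1 1) b b' * Ψ (Matrix.single x.2 x'.2 1) y y') = _
  rw [Fintype.sum_prod_type]
  refine Finset.sum_congr rfl fun a _ => ?_
  simp only [Fintype.sum_prod_type]
  rw [Finset.sum_comm]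
  refine Finset.sum_congr rfl fun a' _ => ?_
  rw [map_eq_sum_single Ψ, Finset.mul_sum]
  refine Finset.sum_congr rfl fun x _ => ?_
  rw [Finset.mul_sum]
  refine Finset.sum_congr rfl fun x' _ => ?_
  simp only [blk, submatrix_apply]
  ring

theorem tensorMap_gadc_blocks (γ ν : ℝ) (Ψ : Matrix ι ι ℂ →ₗ[ℂ] Matrix κ κ ℂ)
    (X : Matrix (Fin 2 × ι) (Fin 2 × ι) ℂ) :
    (tensorMap (gadc γ ν) Ψ X).submatrix (twoE κ).symm (twoE κ).symm =
      fromBlocks (((1 - γ * ν : ℝ) : ℂ) • Ψ (blk X 0 0) + ((γ * (1 - ν) : ℝ) : ℂ) • Ψ (blk X 1 1))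
        (((Real.sqrt (1 - γ) : ℝ) : ℂ) • Ψ (blk X 0 1))
        (((Real.sqrt (1 - γ) : ℝ) : ℂ) • Ψ (blk X 1 0))
        (((γ * ν : ℝ) : ℂ) • Ψ (blk X 0 0) + ((1 - γ * (1 - ν) : ℝ) : ℂ) • Ψ (blk X 1 1)) := by
  ext s s'
  rcases s with y | y <;> rcases s' with y' | y'
  · rw [submatrix_apply]
    show tensorMap (gadc γ ν) Ψ X (0, y) (0, y') = _
    rw [tensorMap_two]
    simp only [Fin.sum_univ_two, gadc_single]
    simp
  · rw [submatrix_apply]
    show tensorMap (gadc γ ν) Ψ X (0, y) (1, y') = _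
    rw [tensorMap_two]
    simp only [Fin.sum_univ_two, gadc_single]
    simp
  · rw [submatrix_apply]
    show tensorMap (gadc γ ν) Ψ X (1, y) (0, y') = _
    rw [tensorMap_two]
    simp only [Fin.sum_univ_two, gadc_single]
    simp
  · rw [submatrix_apply]
    show tensorMap (gadc γ ν) Ψ X (1, y) (1, y') = _
    rw [tensorMap_two]
    simp only [Fin.sum_univ_two, gadc_single]
    simp

theorem gadc_isChannel {γ ν : ℝ} (hγ : γ ∈ Set.Icc (0:ℝ) 1) (hν : ν ∈ Set.Icc (0:ℝ) 1) :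
    IsChannel (gadc γ ν) := by
  obtain ⟨A, hA⟩ := gadc_kraus hγ hν
  refine ⟨4, A, ?_, hA⟩
  ext i j
  have h1 : ∀ X : Matrix (Fin 2) (Fin 2) ℂ, ((∑ k, (A k)ᴴ * A k) * X).trace = X.trace := by
    intro X
    rw [← trace_gadc γ ν X, hA, trace_sum, Matrix.sum_mul, trace_sum]
    refine Finset.sum_congr rfl fun k _ => ?_
    rw [trace_mul_comm (A k * X), ← Matrix.mul_assoc]
  have h2 := h1 (Matrix.single j i 1)
  have h3 : ∀ M : Matrix (Fin 2) (Fin 2) ℂ, (M * Matrix.single j i (1 : ℂ)).trace = M i j := by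
    intro M
    rw [trace_mul_comm]
    simp [Matrix.trace_single_mul]
  have h4 := h3 1
  rw [Matrix.one_mul] at h4
  rw [h3, h4] at h2
  exact h2

theorem twoE_herm {X : Matrix (Fin 2 × ι) (Fin 2 × ι) ℂ} (hX : X.PosSemidef) :
    (X.submatrix (twoE ι).symm (twoE ι).symm).toBlocks₁₁ = blk X 0 0 ∧
    (X.submatrix (twoE ι).symm (twoE ι).symm).toBlocks₁₂ = blk X 0 1 ∧
    (X.submatrix (twoE ι).symm (twoE ι).symm).toBlocks₂₁ = blk X 1 0 ∧
    (X.submatrix (twoE ι).symm (twoE ι).symm).toBlocks₂₂ = blk X 1 1 :=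
  ⟨rfl, rfl, rfl, rfl⟩

/-- **The one-step inequality with an arbitrary channel on the side.** -/
theorem side_step {γ ν : ℝ} (hγ : γ ∈ Set.Icc (0:ℝ) 1) (hν : ν ∈ Set.Icc (0:ℝ) 1)
    {Ψ : Matrix ι ι ℂ →ₗ[ℂ] Matrix κ κ ℂ} (hΨ : IsChannel Ψ)
    {X : Matrix (Fin 2 × ι) (Fin 2 × ι) ℂ} (hX : X.PosSemidef) :
    eta2 ((blk X 0 0).trace.re + (blk X 1 1).trace.re)
        (((1-γ*ν) * (blk X 0 0).trace.re + γ*(1-ν) * (blk X 1 1).trace.re) *
          (γ*ν * (blk X 0 0).trace.re + (1-γ*(1-ν)) * (blk X 1 1).trace.re) -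
          (1-γ) * ((blk X 0 0).trace.re * (blk X 1 1).trace.re)) +
        (vN (Ψ (blk X 0 0)) - Real.negMulLog (blk X 0 0).trace.re) +
        (vN (Ψ (blk X 1 1)) - Real.negMulLog (blk X 1 1).trace.re) ≤
      vN (tensorMap (gadc γ ν) Ψ X) := by
  set B := X.submatrix (twoE ι).symm (twoE ι).symm with hB
  have hBpos : B.PosSemidef := hX.submatrix _
  have hblk := hΨ.block hBpos
  have e11 : B.toBlocks₁₁ = blk X 0 0 := rfl
  have e12 : B.toBlocks₁₂ = blk X 0 1 := rfl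
  have e21 : B.toBlocks₂₁ = blk X 1 0 := rfl
  have e22 : B.toBlocks₂₂ = blk X 1 1 := rfl
  rw [e11, e12, e21, e22] at hblk
  have hherm : Ψ (blk X 1 0) = (Ψ (blk X 0 1))ᴴ := by
    have h1 := hblk.1
    rw [IsHermitian, fromBlocks_conjTranspose, fromBlocks_inj] at h1
    exact h1.2.2.1.symm
  rw [hherm] at hblk
  have hz := zineq hγ hν hblk
  have hout := tensorMap_gadc_blocks γ ν Ψ X
  rw [hherm] at hout
  have hT := ((gadc_isChannel hγ hν).tensorMap hΨ).posSemidef hX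
  rw [← vN_submatrix hT (twoE κ).symm, hout]
  rw [hΨ.trace, hΨ.trace] at hz
  exact hz

theorem trace_two (X : Matrix (Fin 2 × ι) (Fin 2 × ι) ℂ) :
    X.trace.re = (blk X 0 0).trace.re + (blk X 1 1).trace.re := by
  simp only [Matrix.trace, diag_apply, blk, submatrix_apply]
  rw [Fintype.sum_prod_type, Fin.sum_univ_two, Complex.add_re]

theorem ptr_out {γ ν : ℝ} (Ψ : Matrix ι ι ℂ →ₗ[ℂ] Matrix κ κ ℂ)
    (X : Matrix (Fin 2 × ι) (Fin 2 × ι) ℂ) :
    ptr (tensorMap (gadc γ ν) Ψ X) = Ψ (blk X 0 0) + Ψ (blk X 1 1) := by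
  ext k k'
  simp only [ptr, of_apply, Fin.sum_univ_two, tensorMap_two, gadc_single]
  simp
  ring

theorem first_out {γ ν : ℝ} {Ψ : Matrix ι ι ℂ →ₗ[ℂ] Matrix κ κ ℂ} (hΨ : IsChannel Ψ)
    (X : Matrix (Fin 2 × ι) (Fin 2 × ι) ℂ) :
    (∑ k, (tensorMap (gadc γ ν) Ψ X (0, k) (0, k)).re =
      (1 - γ * ν) * (blk X 0 0).trace.re + γ * (1 - ν) * (blk X 1 1).trace.re) ∧
    (∑ k, (tensorMap (gadc γ ν) Ψ X (1, k) (1, k)).re =
      γ * ν * (blk X 0 0).trace.re + (1 - γ * (1 - ν)) * (blk X 1 1).trace.re) := by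
  have h0 : ∀ k, tensorMap (gadc γ ν) Ψ X (0, k) (0, k) =
      ((1 - γ * ν : ℝ) : ℂ) * Ψ (blk X 0 0) k k + ((γ * (1 - ν) : ℝ) : ℂ) * Ψ (blk X 1 1) k k := by
    intro k
    simp only [tensorMap_two, Fin.sum_univ_two, gadc_single]
    simp
  have h1 : ∀ k, tensorMap (gadc γ ν) Ψ X (1, k) (1, k) =
      ((γ * ν : ℝ) : ℂ) * Ψ (blk X 0 0) k k + ((1 - γ * (1 - ν) : ℝ) : ℂ) * Ψ (blk X 1 1) k k := by
    intro k
    simp only [tensorMap_two, Fin.sum_univ_two, gadc_single]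
    simp
  have ht : ∀ Z : Matrix ι ι ℂ, ∑ k, (Ψ Z k k).re = Z.trace.re := by
    intro Z
    have := congrArg Complex.re (hΨ.trace Z)
    rw [← this, Matrix.trace, Complex.re_sum]
    rfl
  constructor
  · simp only [h0, Complex.add_re, Complex.re_ofReal_mul, Finset.sum_add_distrib,
      ← Finset.mul_sum, ht]
  · simp only [h1, Complex.add_re, Complex.re_ofReal_mul, Finset.sum_add_distrib,
      ← Finset.mul_sum, ht]

/-- Entropy of the output: at most the entropy of the populations plus the entropy of the other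
output. -/
theorem vN_out_le {γ ν : ℝ} (hγ : γ ∈ Set.Icc (0:ℝ) 1) (hν : ν ∈ Set.Icc (0:ℝ) 1)
    {Ψ : Matrix ι ι ℂ →ₗ[ℂ] Matrix κ κ ℂ} (hΨ : IsChannel Ψ)
    {X : Matrix (Fin 2 × ι) (Fin 2 × ι) ℂ} (hX : IsState X) :
    vN (tensorMap (gadc γ ν) Ψ X) ≤
      Real.negMulLog ((1 - γ) * (blk X 1 1).trace.re + γ * ν) +
        Real.negMulLog (1 - ((1 - γ) * (blk X 1 1).trace.re + γ * ν)) +
      vN (Ψ (blk X 0 0) + Ψ (blk X 1 1)) := by
  have hst := ((gadc_isChannel hγ hν).tensorMap hΨ).isState hX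
  have h1 := entropy_le_two hst
  rw [ptr_out] at h1
  have hl := log_two_pos
  have h2 := mul_le_mul_of_nonneg_right h1 hl.le
  rw [single_entropy_vN, add_mul, single_entropy_vN, Fin.sum_univ_two] at h2
  obtain ⟨f0, f1⟩ := first_out (γ := γ) (ν := ν) hΨ X
  rw [f0, f1, eta_eq, eta_eq] at h2
  have ht : (blk X 0 0).trace.re + (blk X 1 1).trace.re = 1 := by
    rw [← trace_two, hX.2, Complex.one_re]
  have e0 : (1 - γ * ν) * (blk X 0 0).trace.re + γ * (1 - ν) * (blk X 1 1).trace.re =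
      1 - ((1 - γ) * (blk X 1 1).trace.re + γ * ν) := by
    linear_combination (1 - γ * ν) * ht
  have e1 : γ * ν * (blk X 0 0).trace.re + (1 - γ * (1 - ν)) * (blk X 1 1).trace.re =
      (1 - γ) * (blk X 1 1).trace.re + γ * ν := by
    linear_combination (γ * ν) * ht
  rw [e0, e1, add_mul, div_mul_cancel₀ _ hl.ne', div_mul_cancel₀ _ hl.ne'] at h2
  linarith

/-- The Holevo quantity of a family of unnormalised inputs. -/
theorem family_holevo [Nonempty ι] {Ψ : Matrix ι ι ℂ →ₗ[ℂ] Matrix κ κ ℂ} (hΨ : IsChannel Ψ)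
    {β : Type} [Fintype β] (Z : β → Matrix ι ι ℂ) (hZ : ∀ b, (Z b).PosSemidef)
    (h1 : ∑ b, (Z b).trace.re = 1) :
    vN (∑ b, Ψ (Z b)) - ∑ b, (vN (Ψ (Z b)) - Real.negMulLog (Z b).trace.re) ≤
      holevo Ψ * Real.log 2 := by
  classical
  obtain ⟨σ, hσ⟩ := exists_isState (ι := ι)
  have hw : ∀ b, 0 ≤ (Z b).trace.re := fun b => trace_re_nonneg (hZ b)
  have him : ∀ b, (Z b).trace = ((Z b).trace.re : ℂ) := by
    intro b
    refine Complex.ext (by simp) ?_
    rw [Complex.ofReal_im]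
    exact (Complex.le_def.1 (hZ b).trace_nonneg).2.symm
  set ρ : β → Matrix ι ι ℂ := fun b =>
    if (Z b).trace.re = 0 then σ else (((Z b).trace.re⁻¹ : ℝ) : ℂ) • Z b with hρdef
  have hρ : ∀ b, IsState (ρ b) := by
    intro b
    rw [hρdef]
    by_cases h0 : (Z b).trace.re = 0
    · simp only [h0, if_true]
      exact hσ
    · simp only [h0, if_false]
      refine ⟨(hZ b).smul ?_, ?_⟩
      · exact_mod_cast inv_nonneg.2 (hw b)
      · have h2 : (((Z b).trace.re⁻¹ : ℝ) : ℂ) * (Z b).trace =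
            (((Z b).trace.re⁻¹ : ℝ) : ℂ) * ((Z b).trace.re : ℂ) := congrArg _ (him b)
        rw [trace_smul, smul_eq_mul, h2, ← Complex.ofReal_mul, inv_mul_cancel₀ h0,
          Complex.ofReal_one]
  have hwρ : ∀ b, (((Z b).trace.re : ℝ) : ℂ) • ρ b = Z b := by
    intro b
    rw [hρdef]
    by_cases h0 : (Z b).trace.re = 0
    · simp only [h0, if_true]
      have hz : (Z b).trace = 0 := by rw [him b, h0, Complex.ofReal_zero]
      rw [(hZ b).trace_eq_zero_iff.1 hz]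
      simp
    · simp only [h0, if_false]
      rw [smul_smul, ← Complex.ofReal_mul, mul_inv_cancel₀ h0, Complex.ofReal_one, one_smul]
  set e := Fintype.equivFin β with he
  have hmem : entropy (∑ i, ((Z (e.symm i)).trace.re : ℂ) • Ψ (ρ (e.symm i))) -
      ∑ i, (Z (e.symm i)).trace.re * entropy (Ψ (ρ (e.symm i))) ∈ holevoSet Ψ :=
    ⟨Fintype.card β, fun i => (Z (e.symm i)).trace.re, fun i => ρ (e.symm i), fun i => hw _,
      by rw [Equiv.sum_comp e.symm fun b => (Z b).trace.re]; exact h1, fun i => hρ _, rfl⟩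
  rw [Equiv.sum_comp e.symm fun b => ((Z b).trace.re : ℂ) • Ψ (ρ b),
    Equiv.sum_comp e.symm fun b => (Z b).trace.re * entropy (Ψ (ρ b))] at hmem
  have h2 := le_csSup hΨ.bddAbove hmem
  have h3 := mul_le_mul_of_nonneg_right h2 log_two_pos.le
  rw [sub_mul, single_entropy_vN, Finset.sum_mul] at h3
  have h4 : ∀ b, ((Z b).trace.re : ℂ) • Ψ (ρ b) = Ψ (Z b) := by
    intro b
    rw [← map_smul, hwρ]
  have h5 : ∀ b, (Z b).trace.re * entropy (Ψ (ρ b)) * Real.log 2 =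
      vN (Ψ (Z b)) - Real.negMulLog (Z b).trace.re := by
    intro b
    rw [mul_assoc, single_entropy_vN, ← h4 b, vN_smul (hΨ.posSemidef (hρ b).1) (hw b),
      (hΨ.isState (hρ b)).2, Complex.one_re]
    ring
  simp only [h4, h5] at h3
  exact h3

/-- **Every ensemble** of the tensor product has Holevo quantity at most the sum of the Holevo
capacities. -/
theorem side_holevoSet_le [Nonempty ι] {γ ν : ℝ} (hγ : γ ∈ Set.Icc (0:ℝ) 1)
    (hν : ν ∈ Set.Icc (0:ℝ) 1) {Ψ : Matrix ι ι ℂ →ₗ[ℂ] Matrix κ κ ℂ} (hΨ : IsChannel Ψ) {v : ℝ}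
    (hv : v ∈ holevoSet (tensorMap (gadc γ ν) Ψ)) : v ≤ holevo (gadc γ ν) + holevo Ψ := by
  obtain ⟨m, w, ρ, hw, hw1, hρ, rfl⟩ := hv
  have hl := log_two_pos
  set X : Fin m → Matrix (Fin 2 × ι) (Fin 2 × ι) ℂ := fun a => (w a : ℂ) • ρ a with hXdef
  have hXpos : ∀ a, (X a).PosSemidef := fun a => (hρ a).1.smul (by exact_mod_cast hw a)
  have htr : ∀ a, (X a).trace.re = w a := by
    intro a
    rw [hXdef]
    simp only
    rw [trace_smul, (hρ a).2]
    simp
  have hPpos : ∀ a, (blk (X a) 0 0).PosSemidef := fun a => (hXpos a).submatrix _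
  have hQpos : ∀ a, (blk (X a) 1 1).PosSemidef := fun a => (hXpos a).submatrix _
  have hpq : ∀ a, (blk (X a) 0 0).trace.re + (blk (X a) 1 1).trace.re = w a := by
    intro a
    rw [← trace_two, htr]
  have hsum' : ∑ a, ((blk (X a) 0 0).trace.re + (blk (X a) 1 1).trace.re) = 1 := by
    simp only [hpq, hw1]
  -- the average
  have hst : IsState (∑ a, X a) := isState_sum hw hw1 hρ
  have hblk : ∀ b, blk (∑ a, X a) b b = ∑ a, blk (X a) b b := by
    intro b
    ext i j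
    simp [blk, Matrix.sum_apply]
  have hA := vN_out_le hγ hν hΨ hst
  rw [hblk, hblk, map_sum Ψ, map_sum Ψ] at hA
  -- the first channel
  obtain ⟨v, hv, hveq⟩ := single_letter hγ hν (fun a => (blk (X a) 0 0).trace.re)
    (fun a => (blk (X a) 1 1).trace.re)
    (fun a => trace_re_nonneg (hPpos a)) (fun a => trace_re_nonneg (hQpos a)) hsum'
  have h2 : v * Real.log 2 ≤ holevo (gadc γ ν) * Real.log 2 :=
    mul_le_mul_of_nonneg_right (le_csSup (bddAbove_holevoSet hγ hν) hv) hl.le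
  have htrace : (∑ a, blk (X a) 1 1).trace.re = ∑ a, (blk (X a) 1 1).trace.re := by
    rw [trace_sum, Complex.re_sum]
  rw [htrace] at hA
  -- the second channel
  have h3 := family_holevo hΨ (Sum.elim (fun a => blk (X a) 0 0) (fun a => blk (X a) 1 1))
    (by rintro (a | a); exacts [hPpos a, hQpos a])
    (by
      rw [Fintype.sum_sum_type]
      simp only [Sum.elim_inl, Sum.elim_inr]
      rw [← Finset.sum_add_distrib]
      exact hsum')
  simp only [Fintype.sum_sum_type, Sum.elim_inl, Sum.elim_inr] at h3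
  -- the outputs
  have h4 := Finset.sum_le_sum fun a (_ : a ∈ Finset.univ) => side_step hγ hν hΨ (hXpos a)
  have h5 : ∀ a, vN (tensorMap (gadc γ ν) Ψ (X a)) - Real.negMulLog (w a) =
      w a * vN (tensorMap (gadc γ ν) Ψ (ρ a)) := by
    intro a
    have hc := (gadc_isChannel hγ hν).tensorMap hΨ
    rw [hXdef]
    simp only
    rw [map_smul, vN_smul (hc.posSemidef (hρ a).1) (hw a), hc.trace, (hρ a).2]
    simp
  have h6 : ∑ a, (w a : ℂ) • tensorMap (gadc γ ν) Ψ (ρ a) =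
      tensorMap (gadc γ ν) Ψ (∑ a, X a) := by
    rw [map_sum]
    simp only [hXdef, map_smul]
  have h7 : ∑ a, w a * entropy (tensorMap (gadc γ ν) Ψ (ρ a)) =
      (∑ a, (vN (tensorMap (gadc γ ν) Ψ (X a)) - Real.negMulLog (w a))) / Real.log 2 := by
    rw [Finset.sum_div]
    refine Finset.sum_congr rfl fun a _ => ?_
    rw [h5, entropy_eq_vN, mul_div_assoc]
  rw [h6, h7, entropy_eq_vN, ← sub_div, div_le_iff₀ hl]
  simp only [hpq] at hveq h4
  simp only [Finset.sum_sub_distrib, Finset.sum_add_distrib] at h2 h3 h4 hveq ⊢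
  linarith

/-- **Strong additivity of the Holevo capacity.** -/
theorem holevo_strong [Nonempty ι] {γ ν : ℝ} (hγ : γ ∈ Set.Icc (0:ℝ) 1)
    (hν : ν ∈ Set.Icc (0:ℝ) 1) {Ψ : Matrix ι ι ℂ →ₗ[ℂ] Matrix κ κ ℂ} (hΨ : IsChannel Ψ) :
    holevo (tensorMap (gadc γ ν) Ψ) = holevo (gadc γ ν) + holevo Ψ :=
  le_antisymm (csSup_le (holevoSet_nonempty _) fun _ hv => side_holevoSet_le hγ hν hΨ hv)
    (holevo_add_le (gadc_isChannel hγ hν) hΨ)

/-- Minimum output entropy in homogeneous form. -/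
theorem minOut_mul_le {Ψ : Matrix ι ι ℂ →ₗ[ℂ] Matrix κ κ ℂ} (hΨ : IsChannel Ψ)
    {Z : Matrix ι ι ℂ} (hZ : Z.PosSemidef) :
    Z.trace.re * (minOutputEntropy Ψ * Real.log 2) ≤
      vN (Ψ Z) - Real.negMulLog Z.trace.re := by
  have hw : 0 ≤ Z.trace.re := trace_re_nonneg hZ
  have him : Z.trace = (Z.trace.re : ℂ) := by
    refine Complex.ext (by simp) ?_
    rw [Complex.ofReal_im]
    exact (Complex.le_def.1 hZ.trace_nonneg).2.symm
  by_cases h0 : Z.trace.re = 0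
  · have hz : Z.trace = 0 := by rw [him, h0, Complex.ofReal_zero]
    rw [h0, hZ.trace_eq_zero_iff.1 hz]
    simp [vN_zero]
  · have hst : IsState (((Z.trace.re⁻¹ : ℝ) : ℂ) • Z) := by
      refine ⟨hZ.smul ?_, ?_⟩
      · exact_mod_cast inv_nonneg.2 hw
      · have h2 : ((Z.trace.re⁻¹ : ℝ) : ℂ) * Z.trace =
            ((Z.trace.re⁻¹ : ℝ) : ℂ) * (Z.trace.re : ℂ) := congrArg _ him
        rw [trace_smul, smul_eq_mul, h2, ← Complex.ofReal_mul, inv_mul_cancel₀ h0,
          Complex.ofReal_one]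
    have h1 := minOut_le hΨ hst
    have h2 := mul_le_mul_of_nonneg_right h1 log_two_pos.le
    rw [single_entropy_vN] at h2
    have h3 := mul_le_mul_of_nonneg_left h2 hw
    have h4 : Z = ((Z.trace.re : ℝ) : ℂ) • (((Z.trace.re⁻¹ : ℝ) : ℂ) • Z) := by
      rw [smul_smul, ← Complex.ofReal_mul, mul_inv_cancel₀ h0, Complex.ofReal_one, one_smul]
    have h5 : vN (Ψ Z) = Z.trace.re * vN (Ψ (((Z.trace.re⁻¹ : ℝ) : ℂ) • Z)) +
        Real.negMulLog Z.trace.re := by
      conv_lhs => rw [h4]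
      rw [map_smul Ψ ((Z.trace.re : ℝ) : ℂ), vN_smul (hΨ.posSemidef hst.1) hw,
        (hΨ.isState hst).2, Complex.one_re]
      ring
    rw [h5]
    linarith

/-- **Strong additivity of the minimum output entropy.** -/
theorem minOut_strong [Nonempty ι] {γ ν : ℝ} (hγ : γ ∈ Set.Icc (0:ℝ) 1)
    (hν : ν ∈ Set.Icc (0:ℝ) 1) {Ψ : Matrix ι ι ℂ →ₗ[ℂ] Matrix κ κ ℂ} (hΨ : IsChannel Ψ) :
    minOutputEntropy (tensorMap (gadc γ ν) Ψ) =
      minOutputEntropy (gadc γ ν) + minOutputEntropy Ψ := by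
  refine le_antisymm (minOut_le_add (gadc_isChannel hγ hν) hΨ) ?_
  refine le_csInf (outSet_nonempty _) ?_
  rintro x ⟨X, hX, rfl⟩
  have hl := log_two_pos
  have h1 := side_step hγ hν hΨ hX.1
  have hP : (blk X 0 0).PosSemidef := hX.1.submatrix _
  have hQ : (blk X 1 1).PosSemidef := hX.1.submatrix _
  have hp := trace_re_nonneg hP
  have hq := trace_re_nonneg hQ
  have ht : (blk X 0 0).trace.re + (blk X 1 1).trace.re = 1 := by
    rw [← trace_two, hX.2, Complex.one_re]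
  have h2 := minOut_mul_le hΨ hP
  have h3 := minOut_mul_le hΨ hQ
  have h4 := vN_gadc_st hγ hν true hp hq
  have h5 := minOut_le (gadc_isChannel hγ hν) (st_isState true hp hq)
  have h6 := mul_le_mul_of_nonneg_right h5 hl.le
  rw [single_entropy_vN] at h6
  rw [ht] at h1 h4
  rw [one_mul, Real.negMulLog_one, sub_zero] at h4
  rw [outDet] at h4
  have h7 : (minOutputEntropy (gadc γ ν) + minOutputEntropy Ψ) * Real.log 2 ≤
      entropy (tensorMap (gadc γ ν) Ψ X) * Real.log 2 := by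
    rw [single_entropy_vN]
    have h8 : (blk X 0 0).trace.re * (minOutputEntropy Ψ * Real.log 2) +
        (blk X 1 1).trace.re * (minOutputEntropy Ψ * Real.log 2) =
        minOutputEntropy Ψ * Real.log 2 := by
      rw [← add_mul, ht, one_mul]
    linarith
  exact le_of_mul_le_mul_right h7 hl

end blk

end Vale.Agent.P358
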