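import Vale.Agent.P358.MathlibUsed
import Vale.Agent.P358.Defs

set_option autoImplicit false

namespace Vale.Agent.P358

open Matrix
open scoped ComplexOrder

/-- The tensor product `Φ ⊗ Ψ` of two linear maps on matrices, as a function. -/
noncomputable def tensorMapFun {ι κ ι' κ' : Type} [Fintype ι] [DecidableEq ι] [Fintype ι']
    [DecidableEq ι'] (Φ : Matrix ι ι ℂ →ₗ[ℂ] Matrix κ κ ℂ) (Ψ : Matrix ι' ι' ℂ →ₗ[ℂ] Matrix κ' κ' ℂ)
    (X : Matrix (ι × ι') (ι × ι') ℂ) : Matrix (κ × κ') (κ × κ') ℂ :=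
  Matrix.of fun y y' => ∑ x, ∑ x', X x x' *
    (Φ (Matrix.single x.1 x'.1 1) y.1 y'.1 * Ψ (Matrix.single x.2 x'.2 1) y.2 y'.2)

/-- The tensor product `Φ ⊗ Ψ` of two linear maps on matrices. -/
noncomputable def tensorMap {ι κ ι' κ' : Type} [Fintype ι] [DecidableEq ι] [Fintype ι']
    [DecidableEq ι'] (Φ : Matrix ι ι ℂ →ₗ[ℂ] Matrix κ κ ℂ)
    (Ψ : Matrix ι' ι' ℂ →ₗ[ℂ] Matrix κ' κ' ℂ) :
    Matrix (ι × ι') (ι × ι') ℂ →ₗ[ℂ] Matrix (κ × κ') (κ × κ') ℂ where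
  toFun := tensorMapFun Φ Ψ
  map_add' X Y := by
    ext y y'
    simp [tensorMapFun, add_mul, Finset.sum_add_distrib]
  map_smul' c X := by
    ext y y'
    simp [tensorMapFun, Finset.mul_sum, mul_assoc]

/-- Quantum channels between finite-dimensional systems, in Kraus form: completely positive and
trace-preserving maps. -/
def IsChannel {ι κ : Type} [Fintype ι] [DecidableEq ι] [Fintype κ]
    (Φ : Matrix ι ι ℂ →ₗ[ℂ] Matrix κ κ ℂ) : Prop :=
  ∃ (m : ℕ) (A : Fin m → Matrix κ ι ℂ), ∑ j, (A j)ᴴ * A j = 1 ∧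
    ∀ X, Φ X = ∑ j, A j * X * (A j)ᴴ

/-- The minimum output entropy: the infimum of the output entropies over all input states. -/
noncomputable def minOutputEntropy {ι κ : Type} [Fintype ι] [Fintype κ] [DecidableEq κ]
    (Φ : Matrix ι ι ℂ →ₗ[ℂ] Matrix κ κ ℂ) : ℝ :=
  sInf {x | ∃ ρ : Matrix ι ι ℂ, IsState ρ ∧ x = entropy (Φ ρ)}

end Vale.Agent.P358
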